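import Vale.Agent.P352X.PR.Pub
import Vale.Agent.P352X.EB.Spec
import Vale.Agent.P352X.R.GRP.C
import Vale.Agent.P352.H755.ChJ

/-!
# P352X, block PR: vocabulary (see notes/P352/pr.md)
-/

set_option linter.all false

open MeasureTheory Filter Topology
open scoped SchwartzMap ComplexConjugate ContDiff

namespace Vale.Agent.P352X.PR

open Vale.Agent.P352 Vale.Agent.P352.GF Vale.Agent.P352.BW Vale.Agent.P352.H246
open Vale.Agent.P352.H496 Vale.Agent.P352.H755 Vale.Agent.P352.H15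
open Vale.Agent.P352.SubConf (IsAdj IsKil)
open UniformSpace (Completion)
open Complex (I)

noncomputable section

/-! ## vector fields and charge densities -/

/-- charge densities for the set `K` -/
def Ad (K : Set V) (u : Ix → V → ℝ) : Prop := (∀ m, Tst (u m)) ∧ ∃ Ξ : V → ℝ, ContDiff ℝ ∞ Ξ ∧
  (∃ R, ∀ z ∈ Jc K, (R ≤ z o → ∀ᶠ x in 𝓝 z, Ξ x = 1) ∧ (z o ≤ -R → ∀ᶠ x in 𝓝 z, Ξ x = 0)) ∧
  ∀ z ∈ Jc K, ∀ᶠ x in 𝓝 z, ∀ m, u m x = dr m Ξ x

/-- the pullback of a vector field by a similitude -/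
def pk (s : ℝ) (L : Ix → V) (a : V) (X : Ix → V → ℝ) : Ix → V → ℝ := fun n x =>
  s⁻¹ * ∑ l, X l (sim s L a x) * linv L l n

/-- linear vector fields -/
def Xw (w : Ix → V) : Ix → V → ℝ := fun k x => ∑ m, x m * w m k

/-- infinitesimal Lorentz transformations -/
def Asy (w : Ix → V) : Prop := ∀ m n, eta n * w m n = -(eta m * w n m)

/-- `∂_m X^n` -/
def dX (X : Ix → V → ℝ) (m n : Ix) : Fn := pd m fun y => (X n y : ℂ)

/-- the point `i e_0` -/
def zz (m : Ix) : ℂ := if m = o then I else 0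

variable {D : Type*} [NormedAddCommGroup D] [InnerProductSpace ℂ D]

/-- the current of `X`, smeared with `u` -/
def jj (t : Ix → Ix → Fld D) (X u : Ix → V → ℝ) (v : D) : D :=
  ∑ m, ∑ n, t m n (fun x => ((u m x * (eta n * X n x) : ℝ) : ℂ)) v

/-- its commutator with `Y` -/
def cj (t : Ix → Ix → Fld D) (X u : Ix → V → ℝ) (Y : D → D) (v : D) : D :=
  jj t X u (Y v) - Y (jj t X u v)

/-- additive operators that commute with `t` in the causal complement of `K` -/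
def LocT (t : Ix → Ix → Fld D) (K : Set V) (Y : D → D) : Prop :=
  (∀ v w, Y (v + w) = Y v + Y w) ∧
    ∀ m n g v, IsTest g → tsupport g ⊆ cc K → t m n g (Y v) = Y (t m n g v)

variable (Q : Theory D) (t : Ix → Ix → Fld D)

/-- the group law -/
def Mul : Prop := ∀ s L a s' L' a' v, 0 < s → 0 < s' → IsLor L → IsLor L' →
  Q.U s L a (Q.U s' L' a' v) = Q.U (s * s') (fun m => sim 1 L 0 (L' m)) (sim s L a a') v

/-- `U(scp r s)` -/
def Us (r s : ℝ) : D → D :=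
  Q.U (Real.sqrt (r * s)) (bst va vb (Real.sqrt (r / s) - 1) (Real.sqrt (s / r) - 1)) 0

/-- polynomials in Bose fields, with their adjoints -/
inductive AlB (W : Set V) : (D → D) → (D → D) → Prop
  | one : AlB W (fun v => v) (fun v => v)
  | add (X X' Y Y' : D → D) : AlB W X X' → AlB W Y Y' →
      AlB W (fun v => X v + Y v) (fun v => X' v + Y' v)
  | smul (c : ℂ) (X X' : D → D) : AlB W X X' → AlB W (fun v => c • X v) (fun v => star c • X' v)
  | fld (A B : Fld D) (g : Fn) (X X' : D → D) : Q.bose A → Q.bose B → IsAdj A B → In W g →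
      AlB W X X' → AlB W (fun v => A g (X v)) (fun v => X' (B (bar g) v))

/-- hermitian Bose multiplets of real dimension -/
def Hm (k : ℕ) (d : ℝ) (Φ : (Fin k → Ix) → Fld D) : Prop :=
  IsTc Q k d Φ ∧ ∀ μ, Q.bose (Φ μ) ∧ IsAdj (Φ μ) (Φ μ)

/-- hermitian multiplets of vectors that are locally generated from the vacuum -/
structure Pre (k : ℕ) (d : ℝ) (φ : (Fin k → Ix) → Fn → D) : Prop where
  lin : ∀ μ (f g : Fn) (c : ℂ), CS f → CS g → φ μ (fun x => f x + c * g x) = φ μ f + c • φ μ g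
  bdd : ∀ μ, ∃ p : Seminorm ℂ Sch, Continuous p ∧
    ∀ F : Sch, HasCompactSupport F → ‖φ μ (ev F)‖ ≤ p F
  cov : ∀ μ s L a f, 0 < s → IsLor L → CS f → φ μ f = ∑ ν : Fin k → Ix,
    ((s ^ (4 - d) * ∏ i, L (ν i) (μ i) : ℝ) : ℂ) • Q.U s L a (φ ν fun x => f (sim s L a x))
  loc : ∀ μ f O, IsOpen O → In O f →
    ∃ X X', AlB Q O X X' ∧ φ μ f = X Q.vac ∧ φ μ (bar f) = X' Q.vac

/-- reconstruction of locally generated multiplets -/
def Rec0 : Prop := ∀ k d φ, Pre Q k d φ →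
  ∃ Φ, Hm Q k d Φ ∧ ∀ μ f, CS f → Φ μ f Q.vac = φ μ f

/-- all fields are linear combinations of components of hermitian multiplets -/
def GenH : Prop := ∀ A, Q.fld A → ∃ (n : ℕ) (c : Fin n → ℂ) (k : Fin n → ℕ) (d : Fin n → ℝ)
  (Φ : ∀ i, (Fin (k i) → Ix) → Fld D) (μ : ∀ i, Fin (k i) → Ix),
    (∀ i, Hm Q (k i) (d i) (Φ i)) ∧ ∀ f v, IsTest f → A f v = ∑ i, c i • Φ i (μ i) f v

/-- `t` is a polynomial in Bose fields -/
def Tal : Prop := ∀ O m n g, In O g → AlB Q O (t m n g) (t m n (bar g))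

/-- the Lorentz charges of `t` are the generators -/
def Drv : Prop := ∀ (L : ℝ → Ix → V) (w : Ix → V) B f z, L 0 = GF.one → (∀ e, IsLor (L e)) →
  Asy w → (∀ m n, HasDerivAt (fun e => L e m n) (w m n) 0) → Q.fld B → CS f →
  HasDerivAt (fun e => Q.U 1 (L e) 0 (B f Q.vac)) z 0 → z = I • Phi t (Xw w) B f Q.vac

/-- the first group of hypotheses -/
structure PC0 : Prop where
  isT : IsT Q t
  cov : ∀ m n s L a f v, 0 < s → IsLor L → IsTest f → t m n f (Q.U s L a v) =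
    ∑ k, ∑ l, (L k m * L l n : ℂ) • Q.U s L a (t k l (fun x => f (sim s L a x)) v)
  mul : Mul Q
  wn : ∀ (r s : ℕ → ℝ) (η w : D), (∀ i, 0 < r i ∧ 0 < s i) → Tendsto r atTop atTop →
    inner ℂ Q.vac η = 0 → Tendsto (fun i => inner ℂ (Us Q (r i) (s i) η) w) atTop (𝓝 0)

/-- the hypotheses of the block -/
structure PC : Prop extends PC0 Q t where
  tal : Tal Q t
  gen : GenH Q
  rec0 : Rec0 Q
  drv : Drv Q t

variable {Q t}

/-- the transformation law of a multiplet -/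
def law {k : ℕ} (Φ ΦD : (Fin k → Ix) → Fld D) (ΦK : (Fin (k + 1) → Ix) → Fld D)
    (X : Ix → V → ℝ) (μ : Fin k → Ix) (f : Fn) (v : D) : D :=
  ∑ n, Φ μ (pd n fun x => X n x * f x) v - ΦD μ (fun x => 1 / 4 * dvg X x * f x) v -
    Φ μ (fun x => k / 4 * dvg X x * f x) v +
    ∑ i, ∑ ν, Φ (Function.update μ i ν) (fun x => dX X ν (μ i) x * f x) v -
    ∑ m, ΦK (Fin.cons m μ) (fun x => pd m (dvg X) x * f x) v

variable (Q t) in
/-- the multiplet `Φ` with its images under `D` and `K` -/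
def Cl (k : ℕ) (d : ℝ) (Φ ΦD : (Fin k → Ix) → Fld D) (ΦK : (Fin (k + 1) → Ix) → Fld D) : Prop :=
  Hm Q k d Φ ∧ Hm Q k d ΦD ∧ Hm Q (k + 1) (d - 1) ΦK ∧
    ∀ X μ f v, IsKil X → CS f → Phi t X (Φ μ) f v = I • law Φ ΦD ΦK X μ f v

/-! ## distributions with values in `D` -/

variable (D) in
abbrev VV := Sch →L[ℂ] D

def ap (ψ : VV D) (f : Fn) : D := ψ (sch f)

/-- the derivative of a distribution -/
def Pd (m : Ix) : VV D →ₗ[ℂ] VV D where
  toFun ψ := -(ψ ∘L LineDeriv.lineDerivOpCLM ℂ Sch (bas m 1 : V))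
  map_add' ψ ψ' := by rw [ContinuousLinearMap.add_comp, neg_add]
  map_smul' c ψ := by rw [ContinuousLinearMap.smul_comp, smul_neg, RingHom.id_apply]

variable (Q t)

open Classical in
/-- a field, applied to the vacuum -/
def vB (B : Fld D) : VV D := if h : Q.fld B then Grp.fC h Q.vac else 0

open Classical in
/-- the action of the similitudes -/
def act (s : ℝ) (L : Ix → V) (a : V) : VV D →ₗ[ℂ] VV D :=
  if h : 0 < s ∧ IsLor L then
    { toFun := fun ψ => (ueI Q h.1 h.2 a).toContinuousLinearMap ∘L ψ ∘L Grp.simS h.1 h.2 a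
      map_add' := fun ψ ψ' => by rw [ContinuousLinearMap.add_comp, ContinuousLinearMap.comp_add]
      map_smul' := fun c ψ => by
        rw [ContinuousLinearMap.smul_comp, ContinuousLinearMap.comp_smul, RingHom.id_apply] }
  else 0

/-- translation covariance -/
def TC (ψ : VV D) : Prop := ∀ a, act Q 1 GF.one a ψ = ψ

/-- homogeneity -/
def Hom (e : ℝ) (ψ : VV D) : Prop :=
  ∀ s : ℝ, 0 < s → ((s ^ (4 - e) : ℝ) : ℂ) • act Q s GF.one 0 ψ = ψ

/-- Lorentz covariance -/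
def Lc (k : ℕ) (ψ : (Fin k → Ix) → VV D) : Prop := ∀ μ L, IsLor L →
  ψ μ = ∑ ν : Fin k → Ix, ((∏ i, L (ν i) (μ i) : ℝ) : ℂ) • act Q 1 L 0 (ψ ν)

/-- the multiplets of derivatives of hermitian fields -/
inductive Gm : (k : ℕ) → ℝ → ((Fin k → Ix) → VV D) → Prop
  | base (k : ℕ) (d : ℝ) (Φ : (Fin k → Ix) → Fld D) : Hm Q k d Φ → Gm k d fun μ => vB Q (Φ μ)
  | step (k : ℕ) (e : ℝ) (ψ : (Fin k → Ix) → VV D) : Gm k e ψ →
      Gm (k + 1) (e + 1) fun ν => (eta (ν 0) : ℂ) • Pd (ν 0) (ψ (Fin.tail ν))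

def gens (e : ℝ) : Set (VV D) := {x | ∃ k ψ μ, Gm Q k e ψ ∧ x = ψ μ}

/-- the real span -/
def RR (e : ℝ) : Submodule ℝ (VV D) := Submodule.span ℝ (gens Q e)

/-- the complex span -/
def deg (e : ℝ) : Submodule ℂ (VV D) := Submodule.span ℂ (gens Q e)

def GG : Submodule ℂ (VV D) := ⨆ e, deg Q e

def dg (e : ℝ) : Submodule ℂ (GG Q) := (deg Q e).comap (GG Q).subtype

/-- evaluation at `f0` -/
def jv (f0 : Sch) : GG Q →ₗ[ℂ] D where
  toFun x := (x : VV D) f0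
  map_add' _ _ := rfl
  map_smul' _ _ := rfl

/-- the closure of the graph of the charge on the vectors generated by one field -/
def Qr (X : Ix → V → ℝ) : Submodule ℂ (D × D) := (Submodule.span ℂ {p : D × D |
  ∃ k d Φ μ g, Hm Q k d Φ ∧ CS g ∧ p = (Φ μ g Q.vac, Phi t X (Φ μ) g Q.vac)}).topologicalClosure

variable {Q t}

def wd (ψ : VV D) (S : Ix → Ix → VV D) (K : Ix → VV D) (X : Ix → V → ℝ) (f : Fn) : D :=
  I • (∑ n, ap ψ (pd n fun x => X n x * f x) - ∑ m, ∑ n, ap (S m n) (fun x => dX X m n x * f x) -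
    ∑ m, ap (K m) fun x => pd m (dvg X) x * f x)

def trS (S : Ix → Ix → VV D) : VV D := ∑ m, S m m

def asS (S : Ix → Ix → VV D) (j l : Ix) : VV D := S j l - ((eta j * eta l : ℝ) : ℂ) • S l j

def Nn (S : Ix → Ix → VV D) (m : Ix) : VV D := if m = o then trS S else asS S o m

variable (Q t)

/-- Ward data -/
def Wd (ψ : VV D) (S : Ix → Ix → VV D) (K : Ix → VV D) : Prop :=
  ∀ X f, IsKil X → IsTest f → (ap ψ f, wd ψ S K X f) ∈ Qr Q t X

/-- translation covariant Ward data -/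
def TW (ψ : VV D) (S : Ix → Ix → VV D) (K : Ix → VV D) : Prop :=
  TC Q ψ ∧ (∀ m n, TC Q (S m n)) ∧ (∀ m, TC Q (K m)) ∧ Wd Q t ψ S K

/-- the Ward data of a field -/
def Sf {k : ℕ} (Φ ΦD : (Fin k → Ix) → Fld D) (μ : Fin k → Ix) (m n : Ix) : VV D :=
  (if m = n then (1 / 4 : ℂ) • (vB Q (ΦD μ) + (k : ℂ) • vB Q (Φ μ)) else 0) -
    ∑ i, if μ i = n then vB Q (Φ (Function.update μ i m)) else 0

/-! ## the maximal set of letters -/

/-- covariant multiplets of vectors -/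
structure MC (c : Ctx D) (k : ℕ) (d : ℂ) (φ : (Fin k → Ix) → Fn → Completion D) : Prop where
  lin : ∀ μ (f g : Fn) (z : ℂ), IsTest f → IsTest g →
    φ μ (fun x => f x + z * g x) = φ μ f + z • φ μ g
  cont : ∀ μ, Continuous fun g : Sch => φ μ (ev g)
  cov : ∀ μ (g : EB.Sg) f, IsTest f → φ μ f = ∑ ν : Fin k → Ix,
    (((∏ j, g.L (ν j) (μ j) : ℝ) : ℂ) * (g.s : ℂ) ^ (4 - d)) • g.U c (φ ν (g.pull f))

/-- components of smooth tame multiplets -/
structure Lab2 (c : Ctx D) where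
  k : ℕ
  d : ℂ
  φ : (Fin k → Ix) → Fn → Completion D
  φ' : (Fin k → Ix) → Fn → Completion D
  μ : Fin k → Ix
  h : MC c k d φ
  h' : MC c k (conj d) φ'
  st : ∀ ν f, In EB.W0 f → EB.Stm (EB.M0 c) c.Om (φ ν f) (φ' ν (bar f))
  st' : ∀ ν f, In EB.W0 f → EB.Stm (EB.M0 c) c.Om (φ' ν f) (φ ν (bar f))
  re : RD c.Q → d.im = 0

/-- the adjoint letter -/
def Lab2.dag {c : Ctx D} (a : Lab2 c) : Lab2 c :=
  ⟨a.k, conj a.d, a.φ', a.φ, a.μ, a.h', by simpa using a.h, a.st', a.st,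
    fun h => by simpa using a.re h⟩

end

end Vale.Agent.P352X.PR
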