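import Vale.Agent.P352X.EB.Pub
import Vale.Agent.P352.H246.SubConfDefs

namespace Vale.Agent.P352X

open Vale.Agent.P352.GF Vale.Agent.P352.H246 Vale.Agent.P352.SubConf

noncomputable section

variable {D : Type*} [NormedAddCommGroup D] [InnerProductSpace ℂ D]

/-- The scaling dimensions of the fields that do not vanish are real. -/
def RD (Q : Theory D) : Prop :=
  ∀ B d, Q.fld B → Dim Q d B → d.im = 0 ∨ ∀ f v, IsTest f → B f v = 0

/-- The divergence of a vector field. -/
def dvg (X : Ix → V → ℝ) : Fn := fun x => ∑ n, pd n (fun y => (X n y : ℂ)) x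

/-- **Primary fields.** `O` is a hermitian tensor field of rank `k` and scaling dimension `d`, and
for every conformal Killing vector field `X` the charge of the current `X^n t_{mn}` acts on it by
`-(L_X O + (d + k) / 4 (∂·X) O)`, where `L_X` is the Lie derivative of contravariant tensors. -/
def IsPrim (Q : Theory D) (t : Ix → Ix → Fld D) (k : ℕ) (d : ℝ) (O : (Fin k → Ix) → Fld D) :
    Prop :=
  IsTc Q k d O ∧ ∀ μ, Q.bose (O μ) ∧ IsAdj (O μ) (O μ) ∧ ∀ X f w v, IsKil X → In Set.univ f →
    Comm (fun m n f v => (t m n f v : D)) X (O μ) (O μ) f w v (Complex.I * inner ℂ w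
      (∑ n, O μ (pd n fun x => X n x * f x) v - O μ (fun x => (d + k) / 4 * dvg X x * f x) v +
        ∑ i, ∑ ν, O (Function.update μ i ν)
          (fun x => pd ν (fun y => (X (μ i) y : ℂ)) x * f x) v))

/-- Every field is a finite linear combination of derivatives of components of primary fields. -/
def PrimAll (Q : Theory D) (t : Ix → Ix → Fld D) : Prop := ∀ A, Q.fld A →
  ∃ (n : ℕ) (c : Fin n → ℂ) (k : Fin n → ℕ) (d : Fin n → ℝ) (O : ∀ i, (Fin (k i) → Ix) → Fld D)
    (μ : ∀ i, Fin (k i) → Ix) (α : Fin n → List Ix), (∀ i, IsPrim Q t (k i) (d i) (O i)) ∧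
      ∀ f v, IsTest f → A f v = ∑ i, c i • O i (μ i) ((α i).foldr pd f) v

end

end Vale.Agent.P352X
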