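import Vale.Agent.P352X.PR.Defs
import Vale.Agent.P352X.EB.FIN
import Vale.Agent.P352.H246.ImpJDefs

/-!
# P352X, block PR: the rows (see notes/P352/pr.md)
-/

set_option linter.all false

open MeasureTheory Filter Topology
open scoped SchwartzMap ComplexConjugate ContDiff

namespace Vale.Agent.P352X.PR

open Vale.Agent.P352 Vale.Agent.P352.GF Vale.Agent.P352.BW Vale.Agent.P352.H246
open Vale.Agent.P352.H496 Vale.Agent.P352.H755 Vale.Agent.P352.H15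
open Vale.Agent.P352.SubConf (IsAdj IsKil)
open UniformSpace (Completion)
open Complex (I)

noncomputable section

/-! ## level A: algebra -/

section alg

variable {G E : Type*} [AddCommGroup G] [Module ℂ G] [NormedAddCommGroup E] [InnerProductSpace ℂ E]
  (j : G →ₗ[ℂ] E) (deg : ℝ → Submodule ℂ G) (P K N : Ix → G →ₗ[ℂ] G)

/-- graded modules with an invariant positive form -/
structure AH : Prop where
  inj : Function.Injective j
  top : ⨆ e, deg e = ⊤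
  ind : iSupIndep deg
  neg : ∀ e, e < 0 → deg e = ⊥
  dP : ∀ m e x, x ∈ deg e → P m x ∈ deg (e + 1)
  dK : ∀ m e x, x ∈ deg e → K m x ∈ deg (e - 1)
  dN : ∀ m e x, x ∈ deg e → N m x ∈ deg e
  aP : ∀ x y, inner ℂ (j (P o x)) (j y) = -inner ℂ (j x) (j (P o y))
  aN : ∀ x y, inner ℂ (j (N o x)) (j y) = -inner ℂ (j x) (j (N o y + (2 * I) • P o y))
  aK : ∀ m x y, inner ℂ (j (K m x)) (j y) =
    inner ℂ (j x) (j ((1 / 2 : ℂ) • P m y - (I / 2) • N m y - K m y))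
  aE : ∀ (e e' : ℝ) x y, x ∈ deg e → y ∈ deg e' → inner ℂ (j ((e : ℂ) • x)) (j y) =
    -inner ℂ (j x) (j ((e' : ℂ) • y + (2 * I) • P o y))
  cP : ∀ x, N o (P o x) = P o (N o x) + P o x

/-- the dilation charge is the degree -/
def HD : Prop := ∀ (e : ℝ) x, x ∈ deg e → N o x = (e : ℂ) • x

/-- descendants -/
def PS (e : ℝ) : Submodule ℂ G := ⨆ m, (deg (e - 1)).map (P m)

/-- finite dimensional invariant families -/
def Fam (e : ℝ) (F : ℕ → Submodule ℂ G) : Prop := ∀ i, FiniteDimensional ℂ (F i) ∧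
  F i ≤ deg (e - i) ∧ ∀ m, (F i).map (K m) ≤ F (i + 1) ∧ (F i).map (N m) ≤ F i ∧
    (F (i + 1)).map (P m) ≤ F i

/-- primary plus descendant -/
def Dc1 (e : ℝ) (x : G) : Prop := ∃ O ∈ deg e, (∀ m, K m O = 0) ∧ x - O ∈ PS deg P e

/-- row ALG1 -/
def ALG1 : Prop := AH j deg P K N → HD deg N

/-- row ALG2 -/
structure ALG2 : Prop where
  ex : AH j deg P K N → HD deg N → ∀ e F, Fam deg P K N e F → ∀ x ∈ F 0, Dc1 deg P K e x
  un : AH j deg P K N → HD deg N → (∀ e, ∀ x ∈ deg e, Dc1 deg P K e x) →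
    ∀ e, ∀ O ∈ deg e, (∀ m, K m O = 0) → O ∈ PS deg P e → O = 0

/-- the commutation relations -/
structure CR (M : Ix → Ix → G →ₗ[ℂ] G) : Prop where
  nm : ∀ m, m ≠ o → N m = M o m
  kp : ∀ i l x, K i (P l x) = P l (K i x) + (1 / 4 : ℂ) • (M i l x + if i = l then N o x else 0)
  mp : ∀ i k l x, M i k (P l x) = P l (M i k x) + (if i = l then P k x else 0) -
    ((eta i * eta k : ℝ) : ℂ) • if k = l then P i x else 0

/-- row ALG3 -/
def ALG3 : Prop := ∀ M, AH j deg P K N → HD deg N → CR P K N M → ∀ (d : ℝ)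
  (W : ℕ → Submodule ℂ G), (∀ i, FiniteDimensional ℂ (W i) ∧ W i ≤ deg (d - i) ∧
    (∀ m n, (W i).map (M m n) ≤ W i) ∧ ∀ m, (W i).map (K m) ≤ W (i + 1)) →
  ∀ (α : List Ix), ∀ w ∈ W 0, ∃ F, Fam deg P K N (d + α.length) F ∧
    α.foldr (fun m x => P m x) w ∈ F 0

end alg

/-! ## level B: test functions and vector fields -/

/-- row F0A: a test function whose Fourier transform is `exp (-p⁰)` on the cone -/
def F0A (f0 : Sch) : Prop := ∀ p : V, 0 ≤ p o → 0 ≤ GF.mdot p p →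
  ft (ev f0) p = Complex.exp (-(p o : ℂ)) ∧ ∀ m n,
    ft (fun x => x m * f0 x) p = zz m * ft (ev f0) p ∧
    ft (fun x => x m * x n * f0 x) p = zz m * zz n * ft (ev f0) p

/-- row PK: pullbacks of vector fields -/
structure PK : Prop where
  kil : ∀ s L a X, 0 < s → IsLor L → IsKil X → IsKil (pk s L a X)
  inv : ∀ L X, IsLor L → pk 1 (linv L) 0 (pk 1 L 0 X) = X ∧ pk 1 L 0 (pk 1 (linv L) 0 X) = X
  div : ∀ s L a X f, 0 < s → IsLor L → IsKil X → IsTest f →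
    (fun x => ∑ n, pd n (fun y => pk s L a X n y * f (sim s L a y)) x) =
      fun x => ∑ n, pd n (fun y => X n y * f y) (sim s L a x)
  dx : ∀ s L a X m n x, 0 < s → IsLor L → IsKil X → dX (pk s L a X) m n x =
    ∑ j, ∑ l, ((L m j * linv L l n : ℝ) : ℂ) * dX X j l (sim s L a x)
  dvg : ∀ s L a X x, 0 < s → IsLor L → IsKil X → dvg (pk s L a X) x = dvg X (sim s L a x)
  ddv : ∀ s L a X m x, 0 < s → IsLor L → IsKil X → pd m (P352X.dvg (pk s L a X)) x =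
    ∑ j, ((s * L m j : ℝ) : ℂ) * pd j (P352X.dvg X) (sim s L a x)
  jet : ∀ (a b : V) (r : ℝ) (w : Ix → V) (X : Ix → V → ℝ), Asy w →
    (∀ n x, X n x = a n + r * x n + ∑ m, x m * w m n +
      2 * GF.mdot b x * x n - GF.mdot x x * b n) → ∀ m n x,
    dX X m n x = (((r * (if n = m then 1 else 0) + w m n) + qb b m n x : ℝ) : ℂ) ∧
      P352X.dvg X x = ((4 * r + 8 * GF.mdot b x : ℝ) : ℂ) ∧
      pd m (P352X.dvg X) x = ((8 * (eta m * b m) : ℝ) : ℂ)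
  t1 : ∀ X f n, IsKil X → IsTest f → IsTest fun x => X n x * f x
  t2 : ∀ X f m n, IsKil X → IsTest f → IsTest fun x => dX X m n x * f x
  t3 : ∀ X f, IsKil X → IsTest f → IsTest fun x => P352X.dvg X x * f x
  t4 : ∀ X f m, IsKil X → IsTest f → IsTest fun x => pd m (P352X.dvg X) x * f x

/-! ## level C: charges -/

variable {D : Type*} [NormedAddCommGroup D] [InnerProductSpace ℂ D] (Q : Theory D)
  (t : Ix → Ix → Fld D)

/-- row CHG1: charges on general surfaces -/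
structure CHG1 : Prop where
  ind : ∀ X K Y u u' v, IsKil X → IsCompact K → LocT t K Y → Ad K u → Ad K u' →
    cj t X u Y v = cj t X u' Y v
  ex : ∀ K, IsCompact K → ∃ u, Ad K u
  mono : ∀ K K' u, K ⊆ K' → Ad K' u → Ad K u
  phi : ∀ X K B f u v, IsKil X → IsCompact K → Q.fld B → IsTest f → tsupport f ⊆ K → Ad K u →
    Phi t X B f v = cj t X u (B f) v
  herm : ∀ X u v w, IsKil X → (∀ m, Tst (u m)) →
    inner ℂ (jj t X u v) w = inner ℂ v (jj t X u w)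
  lin : ∀ X X' (c : ℝ) u v, IsKil X → IsKil X' → (∀ m, Tst (u m)) →
    jj t (fun n x => X n x + c * X' n x) u v = jj t X u v + (c : ℂ) • jj t X' u v
  fld : ∀ K B f, Q.fld B → IsTest f → tsupport f ⊆ K → LocT t K (B f)
  small : ∀ y O, IsOpen O → y ∈ O → ∃ ε : ℝ, 0 < ε ∧ ∃ u, Ad (Metric.closedBall y ε) u ∧
    ∀ m, tsupport (u m) ⊆ O

/-- row CHG2: covariance of the charge densities -/
def CHG2 : Prop := ∀ s L a K u, 0 < s → IsLor L → IsCompact K → Ad K u →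
  IsCompact (sim s L a ⁻¹' K) ∧ (∀ Y, LocT t K Y → LocT t (sim s L a ⁻¹' K) fun v =>
    Q.U s⁻¹ (linv L) (-(sim s⁻¹ (linv L) 0 a)) (Y (Q.U s L a v))) ∧
  ∃ u', Ad (sim s L a ⁻¹' K) u' ∧ ∀ X v, IsKil X →
    jj t X u (Q.U s L a v) = Q.U s L a (jj t (pk s L a X) u' v)

/-- row BAS: inverses, separation, covariance of multiplets -/
structure BAS : Prop where
  one : ∀ v, Q.U 1 GF.one 0 v = v
  inv : ∀ s L a v, 0 < s → IsLor L →
    Q.U s L a (Q.U s⁻¹ (linv L) (-(sim s⁻¹ (linv L) 0 a)) v) = v ∧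
    Q.U s⁻¹ (linv L) (-(sim s⁻¹ (linv L) 0 a)) (Q.U s L a v) = v
  sep : ∀ (Y Y' : D → D) O, IsOpen O → O.Nonempty → (∀ v w, inner ℂ (Y v) w = inner ℂ v (Y' w)) →
    (∀ C g v, Q.fld C → In O g → Y (C g v) = C g (Y v)) → Y Q.vac = 0 → ∀ v, Y v = 0
  alb : ∀ O X X', AlB Q O X X' → (∀ v w, inner ℂ (X v) w = inner ℂ v (X' w)) ∧
    ∀ C g v, Q.fld C → IsTest g → tsupport g ⊆ cc O → X (C g v) = C g (X v) ∧
      X' (C g v) = C g (X' v)
  sepB : ∀ O X X' Y Y', Bornology.IsBounded O → AlB Q O X X' → AlB Q O Y Y' →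
    X Q.vac = Y Q.vac → ∀ v, X v = Y v ∧ X' v = Y' v
  mono : ∀ O O' X X', O ⊆ O' → AlB Q O X X' → AlB Q O' X X'
  mulB : ∀ O X X' Y Y', AlB Q O X X' → AlB Q O Y Y' →
    AlB Q O (fun v => X (Y v)) (fun v => Y' (X' v))
  hcov : ∀ k d Φ μ s L a f v, Hm Q k d Φ → 0 < s → IsLor L → IsTest f →
    Φ μ f (Q.U s L a v) = ∑ ν : Fin k → Ix, ((s ^ (4 - d) * ∏ i, L (ν i) (μ i) : ℝ) : ℂ) •
      Q.U s L a (Φ ν (fun x => f (sim s L a x)) v)

/-- tools of level C -/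
structure B1 : Prop extends PC0 Q t where
  pk : PK
  c1 : CHG1 Q t
  c2 : CHG2 Q t
  bas : BAS Q

/-- row VAC: the charges annihilate the vacuum -/
structure VAC : Prop where
  vac : ∀ X K (Y Y' : D → D) u, IsKil X → IsCompact K → LocT t K Y →
    (∀ v w, inner ℂ (Y v) w = inner ℂ v (Y' w)) → Ad K u → inner ℂ Q.vac (cj t X u Y Q.vac) = 0
  sym : ∀ X A A' B f g, IsKil X → Q.fld A → Q.fld A' → IsAdj A A' → Q.fld B → CS f → CS g →
    inner ℂ (Phi t X A f Q.vac) (B g Q.vac) = inner ℂ (A f Q.vac) (Phi t X B g Q.vac)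

/-- row COV: covariance of the action of the charges -/
structure COV : Prop where
  phi : ∀ k d Φ μ s L a X f v, Hm Q k d Φ → 0 < s → IsLor L → IsKil X → CS f →
    Phi t X (Φ μ) f (Q.U s L a v) = ∑ ν : Fin k → Ix,
      ((s ^ (4 - d) * ∏ i, L (ν i) (μ i) : ℝ) : ℂ) •
        Q.U s L a (Phi t (pk s L a X) (Φ ν) (fun x => f (sim s L a x)) v)
  dd : ∀ k d Φ μ s L a f v, Hm Q k d Φ → 0 < s → IsLor L → CS f →
    H755.Sg t Xd (Φ μ) f (Q.U s L a v) = ∑ ν : Fin k → Ix,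
      ((s ^ (4 - d) * ∏ i, L (ν i) (μ i) : ℝ) : ℂ) •
        Q.U s L a (H755.Sg t Xd (Φ ν) (fun x => f (sim s L a x)) v)
  kk : ∀ k d Φ (μ : Fin (k + 1) → Ix) s L a f v, Hm Q k d Φ → 0 < s → IsLor L → CS f →
    KK t (μ 0) (Φ (Fin.tail μ)) f (Q.U s L a v) = ∑ ν : Fin (k + 1) → Ix,
      ((s ^ (4 - (d - 1)) * ∏ i, L (ν i) (μ i) : ℝ) : ℂ) •
        Q.U s L a (KK t (ν 0) (Φ (Fin.tail ν)) (fun x => f (sim s L a x)) v)

/-- row PCH: the Lorentz charges of an improvement -/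
def PCH : Prop := ∀ T, (∀ m n, Q.fld (T m n)) → IsT Q t → IsImpr Q T t → ∀ w B f F, Asy w →
  Q.fld B → CS f → IsCutoff F → ∀ᶠ R in atTop, ∀ v, Phi t (Xw w) B f v =
    ND.cur T (fun z n => Xw w n z) (F R) (B f v) - B f (ND.cur T (fun z n => Xw w n z) (F R) v)

/-- row LOR: the spin -/
def LOR : Prop := ∀ k d Φ μ w f v, Hm Q k d Φ → Asy w → CS f → H755.Sg t (Xw w) (Φ μ) f v =
  -∑ i, ∑ ν, (w ν (μ i) : ℂ) • Φ (Function.update μ i ν) f v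

/-- row LOC: the action of the charges is local -/
structure LOC : Prop where
  phi : ∀ X B f O, IsKil X → Q.bose B → IsAdj B B → IsOpen O → In O f →
    AlB Q O (fun v => I • Phi t X B f v) fun v => I • Phi t X B (bar f) v
  sg : ∀ X B f O, IsKil X → Q.bose B → IsAdj B B → IsOpen O → In O f →
    AlB Q O (H755.Sg t X B f) (H755.Sg t X B (bar f))
  kk : ∀ m B f O, Q.bose B → IsAdj B B → IsOpen O → In O f → AlB Q O (KK t m B f) (KK t m B (bar f))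

/-- tools for the closure -/
structure B2 : Prop extends B1 Q t, PC Q t where
  vac : VAC Q t
  cv : COV Q t
  loc : LOC Q t

/-- row CLO: the hermitian multiplets are closed under `D` and `K` -/
def CLO : Prop := ∀ k d Φ, Hm Q k d Φ → ∃ ΦD ΦK, Cl Q t k d Φ ΦD ΦK

/-! ## level D: distributions -/

/-- tools of level D -/
structure B3 : Prop extends B2 Q t where
  clo : CLO Q t

/-- row F0B: evaluation at `f0` -/
structure F0B (f0 : Sch) : Prop where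
  ev1 : ∀ ψ m, TC Q ψ → ap ψ (fun x => x m * f0 x) = zz m • ψ f0
  ev2 : ∀ ψ m n, TC Q ψ → ap ψ (fun x => x m * x n * f0 x) = (zz m * zz n) • ψ f0
  inj : ∀ ψ, TC Q ψ → ψ f0 = 0 → ψ = 0
  pos : ∀ ψ, TC Q ψ → (inner ℂ (ψ f0) (I • Pd o ψ f0)).re ≤ 0

/-- row WD1: the graph of the charges -/
structure WD1 : Prop where
  sym : ∀ X y z y' z', IsKil X → (y, z) ∈ Qr Q t X → (y', z') ∈ Qr Q t X →
    inner ℂ z y' = inner ℂ y z'
  uq : ∀ X z, IsKil X → ((0 : D), z) ∈ Qr Q t X → z = 0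
  zero : Wd Q t 0 0 0
  add : ∀ ψ S K ψ' S' K', Wd Q t ψ S K → Wd Q t ψ' S' K' → Wd Q t (ψ + ψ') (S + S') (K + K')
  smul : ∀ (c : ℂ) ψ S K, Wd Q t ψ S K → Wd Q t (c • ψ) (c • S) (c • K)
  uniq : ∀ ψ S K S' K', Wd Q t ψ S K → Wd Q t ψ S' K' →
    K = K' ∧ trS S = trS S' ∧ asS S = asS S'

/-- row WD2: the Ward data of fields and of derivatives -/
structure WD2 : Prop where
  fld : ∀ k d Φ ΦD ΦK μ, Cl Q t k d Φ ΦD ΦK →
    Wd Q t (vB Q (Φ μ)) (Sf Q Φ ΦD μ) fun m => vB Q (ΦK (Fin.cons m μ))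
  pd : ∀ ψ S K l, Wd Q t ψ S K → Wd Q t (Pd l ψ)
    (fun m n => Pd l (S m n) + if m = l then Pd n ψ else 0)
    fun j => Pd l (K j) + (1 / 4 : ℂ) • (asS S j l + if j = l then trS S else 0)

/-- row WD3: Lorentz transforms of primaries -/
def WD3 : Prop := ∀ ψ S L, IsLor L → Wd Q t ψ S 0 → ∃ S', Wd Q t (act Q 1 L 0 ψ) S' 0

/-- row ADJ: the adjoints for the form `⟨x f0, y f0⟩` -/
structure ADJ (f0 : Sch) : Prop where
  aP : ∀ ψ ψ' m, TC Q ψ → TC Q ψ' →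
    inner ℂ (Pd m ψ f0) (ψ' f0) = -inner ℂ (ψ f0) (Pd m ψ' f0)
  aN : ∀ ψ S K ψ' S' K' m, TW Q t ψ S K → TW Q t ψ' S' K' →
    inner ℂ (Nn S m f0) (ψ' f0) = -inner ℂ (ψ f0) ((Nn S' m + (2 * I) • Pd m ψ') f0)
  aK : ∀ ψ S K ψ' S' K' m, TW Q t ψ S K → TW Q t ψ' S' K' → inner ℂ (K m f0) (ψ' f0) =
    inner ℂ (ψ f0) (((1 / 2 : ℂ) • Pd m ψ' - (I / 2) • Nn S' m - K' m) f0)
  aE : ∀ (e e' : ℝ) ψ ψ', TC Q ψ → TC Q ψ' → Hom Q e ψ → Hom Q e' ψ' →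
    inner ℂ (((e : ℂ) • ψ) f0) (ψ' f0) = -inner ℂ (ψ f0) (((e' : ℂ) • ψ' + (2 * I) • Pd o ψ') f0)
  neg : ∀ e ψ, TC Q ψ → Hom Q e ψ → e < 0 → ψ = 0

/-- row GM1: covariance of the generators -/
structure GM1 : Prop where
  app : ∀ (ψ : VV D) (g : Sch), ap ψ (ev g) = ψ g
  vb : ∀ B f, Q.fld B → IsTest f → ap (vB Q B) f = B f Q.vac
  apd : ∀ (ψ : VV D) m f, IsTest f → ap (Pd m ψ) f = -ap ψ (pd m f)
  apa : ∀ ψ s L a f, 0 < s → IsLor L → IsTest f →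
    ap (act Q s L a ψ) f = Q.U s L a (ap ψ fun x => f (sim s L a x))
  tcp : ∀ ψ m, TC Q ψ → TC Q (Pd m ψ)
  lc : ∀ k e ψ, Gm Q k e ψ → Lc Q k ψ
  tc : ∀ e x, x ∈ deg Q e → TC Q x ∧ Hom Q e x
  ind : iSupIndep (deg Q)
  pd : ∀ e m x, (x ∈ deg Q e → Pd m x ∈ deg Q (e + 1)) ∧ (x ∈ RR Q e → Pd m x ∈ RR Q (e + 1))
  act : ∀ e L x, IsLor L → x ∈ deg Q e → act Q 1 L 0 x ∈ deg Q e
  actp : ∀ L m, IsLor L → ∃ c : Ix → ℂ, ∀ x : VV D,
    PR.act Q 1 L 0 (Pd m x) = ∑ j, c j • Pd j (PR.act Q 1 L 0 x)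
  word : ∀ k e ψ μ, Gm Q k e ψ → ∃ (k' : ℕ) (d : ℝ) (Φ : (Fin k' → Ix) → Fld D) (μ' : Fin k' → Ix)
    (α : List Ix) (c : ℝ), Hm Q k' d Φ ∧ e = d + α.length ∧
      ψ μ = (c : ℂ) • α.foldr (fun m x => Pd m x) (vB Q (Φ μ'))

/-- row GM2: real structure and locality -/
structure GM2 : Prop where
  cx : ∀ e x, x ∈ deg Q e → ∃ a ∈ RR Q e, ∃ b ∈ RR Q e, x = a + I • b
  rd : ∀ e x, x ∈ RR Q e → x ∈ deg Q e
  ri : ∀ e x y, x ∈ RR Q e → y ∈ RR Q e → x = I • y → x = 0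
  pre : ∀ k e O, (∀ μ, O μ ∈ RR Q e) → Lc Q k O → Pre Q k e fun μ f => ap (O μ) f

/-- tools for the operators -/
structure B4 (f0 : Sch) : Prop extends B3 Q t where
  f0b : F0B Q f0
  w1 : WD1 Q t
  w2 : WD2 Q t
  w3 : WD3 Q t
  adj : ADJ Q t f0
  g1 : GM1 Q
  g2 : GM2 Q

/-- the operators -/
structure Ops (f0 : Sch) (P K N : Ix → GG Q →ₗ[ℂ] GG Q) (M : Ix → Ix → GG Q →ₗ[ℂ] GG Q) : Prop where
  ah : AH (jv Q f0) (dg Q) P K N
  cr : CR P K N M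
  p : ∀ m x, (P m x : VV D) = Pd m x
  ex : ∀ x : GG Q, ∃ S K', Wd Q t x S K'
  sp : ∀ (x : GG Q) S K', Wd Q t x S K' → (∀ m, (K m x : VV D) = K' m) ∧ (N o x : VV D) = trS S ∧
    ∀ j l, (M j l x : VV D) = asS S j l
  re : ∀ e m (x : GG Q), (x : VV D) ∈ RR Q e → (K m x : VV D) ∈ RR Q (e - 1)

/-- row OPR -/
def OPR (f0 : Sch) : Prop := ∃ P K N M, Ops Q t f0 P K N M

/-- row DCM: decomposition into primaries and descendants -/
def DCM : Prop := ∀ k e ψ, Gm Q k e ψ → ∃ (O : (Fin k → Ix) → VV D) (y : (Fin k → Ix) → Ix → VV D),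
  (∀ μ, O μ ∈ RR Q e ∧ (∀ m, y μ m ∈ RR Q (e - 1)) ∧ ψ μ = O μ + ∑ m, Pd m (y μ m) ∧
    ∃ S, Wd Q t (O μ) S 0 ∧ trS S = (e : ℂ) • O μ) ∧ Lc Q k O

/-! ## the two applications -/

variable {Q t} (c : Ctx D)

/-- row V2A -/
def V2A : Prop := TdAll c.Q → RD c.Q → Rec c.Q → GenH c.Q ∧ Rec0 c.Q

/-- row V2B -/
def V2B : Prop := ∀ J, IsVirial c.Q c.T J → IsImpr c.Q c.T (improveJ c.T J) →
  PC0 c.Q (improveJ c.T J) ∧ Tal c.Q (improveJ c.T J) ∧ Drv c.Q (improveJ c.T J)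

/-- row LET2 -/
def LET2 : Prop := EB.STL0 c → EB.STF0 c → ∃ x : EB.Lt c (Lab2 c), x.dag = Lab2.dag ∧
  (∀ a, x.φ a = a.φ a.μ) ∧ (∃ a, x.dag a = a ∧ x.φ a = c.l) ∧
  (∀ p : EB.Fin'.Lb c.Q, ∃ a, x.Is a p.1.1 p.1.2) ∧
  ∀ B, Comp c.Q B → ∃ p : EB.Fin'.Lb c.Q, p.1.1 = B

variable {c}

/-- the extension with all smooth tame multiplets -/
structure X3 (x : EB.Lt c (Lab2 c)) (Q' : Theory x.Dn) (e : Fld D → Fld x.Dn) (L : Fld x.Dn) :
    Prop extends EB.E1 x where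
  m1 : EB.MU1 c
  m2 : EB.MU2 c
  ex : EB.EXT x
  wp : EB.WP x
  fs : EB.FS x
  cv : EB.CV x
  dag : x.dag = Lab2.dag
  ph : ∀ a, x.φ a = a.φ a.μ
  vac : (Q'.vac : Completion D) = c.Om
  U : Q'.U = x.Ud
  fld : ∀ B, Q'.fld B ↔ x.Fs (fun _ => True) B
  bose : ∀ B, Q'.bose B ↔ x.Fs (fun _ => True) B
  ext : Ext c.Q Q' e
  sT : Q'.IsStress fun m n => e (c.T m n)
  sc : Q'.IsScalar L 2
  imp : IsImpr Q' (fun m n => e (c.T m n)) (improve (fun m n => e (c.T m n)) L)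

/-- row V3A -/
def V3A (x : EB.Lt c (Lab2 c)) (Q' : Theory x.Dn) : Prop := (RD c.Q → GenH Q') ∧ Rec0 Q'

/-- row V3B -/
def V3B (x : EB.Lt c (Lab2 c)) (Q' : Theory x.Dn) (t : Ix → Ix → Fld x.Dn) : Prop :=
  PC0 Q' t ∧ Tal Q' t

/-- row V3C -/
def V3C (x : EB.Lt c (Lab2 c)) (Q' : Theory x.Dn) (t : Ix → Ix → Fld x.Dn) : Prop :=
  B1 Q' t → VAC Q' t → PCH Q' t → Drv Q' t

end

end Vale.Agent.P352X.PR
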